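import Vale.Agent.P103.H308.Main

/-!
# P103: products with a fixed manifold
-/

namespace Vale.Agent.P103.H308

open Filter Topology CategoryTheory AlgebraicTopology
open scoped Manifold ContDiff TensorProduct

theorem gr_le_zero_of_le {M N : Type} [MetricSpace M] [MetricSpace N]
    {f : M → M} {g : N → N} {ε : ℝ} (hf : gr f ε ≤ 0) (K : ℕ)
    (h : ∀ n, sepCard g n ε ≤ K * sepCard f n ε) : gr g ε ≤ 0 := by
  refine EReal.le_of_forall_lt_iff_le.mp fun z hz => ?_
  have hz' : (0 : ℝ) < z := by exact_mod_cast hz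
  have hzk : (0 : EReal) < ((z / 2 : ℝ) : EReal) := by
    exact_mod_cast half_pos hz'
  have h1 : gr f ε < ((z / 2 : ℝ) : EReal) := hf.trans_lt hzk
  have h2 : ∀ᶠ n : ℕ in atTop,
      ENNReal.log (sepCard f n ε : ENNReal) / (n : EReal) < ((z / 2 : ℝ) : EReal) :=
    eventually_lt_of_limsup_lt h1 (by isBoundedDefault)
  obtain ⟨N0, hN0⟩ := exists_nat_gt (Real.log (K + 1) / (z / 2))
  unfold gr
  refine limsup_le_of_le (by isBoundedDefault) ?_
  filter_upwards [h2, eventually_ge_atTop 1, eventually_ge_atTop N0] with n hn1 hn2 hn3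
  have hn' : (0 : ℝ) < n := by exact_mod_cast hn2
  have e3 : (0 : EReal) < (n : EReal) := by exact_mod_cast hn2
  have h5 : ENNReal.log (sepCard f n ε : ENNReal) < ((z / 2 : ℝ) : EReal) * (n : EReal) := by
    have h := (EReal.div_lt_iff e3 (EReal.natCast_ne_top _)).mp hn1
    simpa only [mul_comm] using h
  have h6 : ENNReal.log ((K : ENNReal) + 1) ≤ ((z / 2 * n : ℝ) : EReal) := by
    have h7 : ((K : ENNReal) + 1) = ENNReal.ofReal ((K : ℝ) + 1) := by
      rw [ENNReal.ofReal_add (by positivity) (by norm_num), ENNReal.ofReal_natCast,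
        ENNReal.ofReal_one]
    rw [h7, ENNReal.log_ofReal_of_pos (by positivity)]
    have h8 : Real.log (K + 1) / (z / 2) ≤ n := hN0.le.trans (by exact_mod_cast hn3)
    rw [div_le_iff₀ (half_pos hz')] at h8
    have h9 : Real.log (K + 1) ≤ z / 2 * n := by linarith
    exact_mod_cast h9
  have h7 : ENNReal.log (sepCard g n ε : ENNReal) ≤
      ENNReal.log ((K : ENNReal) + 1) + ENNReal.log (sepCard f n ε : ENNReal) := by
    rw [← ENNReal.log_mul_add]
    apply ENNReal.log_monotone
    have h8 : (sepCard g n ε : ENNReal) ≤ ((K * sepCard f n ε : ℕ∞) : ENNReal) := by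
      exact_mod_cast h n
    refine h8.trans ?_
    rw [ENat.toENNReal_mul, ENat.toENNReal_coe]
    gcongr
    exact le_self_add
  refine (EReal.div_le_iff_le_mul e3 (EReal.natCast_ne_top _)).mpr ?_
  refine h7.trans ?_
  have h8 : (n : EReal) * ((z : ℝ) : EReal) =
      ((z / 2 * n : ℝ) : EReal) + ((z / 2 : ℝ) : EReal) * (n : EReal) := by
    have : (n : EReal) = ((n : ℝ) : EReal) := by norm_cast
    rw [this, ← EReal.coe_mul, ← EReal.coe_mul, ← EReal.coe_add]
    congr 1
    ring
  rw [h8]
  exact add_le_add h6 h5.le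

theorem prodMap_iter {M N : Type} (f : M → M) (j : ℕ) (e : M × N) :
    (Prod.map f id)^[j] e = (f^[j] e.1, e.2) := by
  rw [Prod.map_iterate, Function.iterate_id]
  rfl

theorem exists_card_bound {M N : Type} [MetricSpace M] [MetricSpace N] [CompactSpace N]
    (f : M → M) {ε : ℝ} (hε : 0 < ε) :
    ∃ K : ℕ, ∀ n, sepCard (Prod.map f (id : N → N)) n ε ≤ K * sepCard f n ε := by
  classical
  obtain ⟨t, -, ht, hcov⟩ := (isCompact_univ (X := N)).finite_cover_balls (half_pos hε)
  have hc : ∀ y : N, ∃ i ∈ ht.toFinset, dist y i < ε / 2 := by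
    intro y
    have hy := hcov (Set.mem_univ y)
    rw [Set.mem_iUnion₂] at hy
    obtain ⟨i, hi, hyi⟩ := hy
    exact ⟨i, ht.mem_toFinset.mpr hi, hyi⟩
  choose c hc1 hc2 using hc
  refine ⟨ht.toFinset.card, fun n => ?_⟩
  rw [show sepCard (Prod.map f (id : N → N)) n ε = ⨆ (E : Finset (M × N)) (_ : ∀ x ∈ E, ∀ y ∈ E,
    x ≠ y → ε < dn (Prod.map f (id : N → N)) n x y), (E.card : ℕ∞) from rfl]
  refine iSup₂_le fun E hE => ?_
  have hfib : ∀ i ∈ ht.toFinset,
      ((E.filter fun e => c e.2 = i).card : ℕ∞) ≤ sepCard f n ε := by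
    intro i hi
    have hnear : ∀ e ∈ E.filter (fun e => c e.2 = i), ∀ e' ∈ E.filter (fun e => c e.2 = i),
        dist e.2 e'.2 < ε := by
      intro e he e' he'
      rw [Finset.mem_filter] at he he'
      have h1 := hc2 e.2
      have h2 := hc2 e'.2
      rw [he.2] at h1
      rw [he'.2] at h2
      have h3 := dist_triangle e.2 i e'.2
      rw [dist_comm i] at h3
      linarith
    have key : ∀ e ∈ E.filter (fun e => c e.2 = i), ∀ e' ∈ E.filter (fun e => c e.2 = i),
        e ≠ e' → ε < dn f n e.1 e'.1 := by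
      intro e he e' he' hne
      have h1 := hE e (Finset.mem_filter.mp he).1 e' (Finset.mem_filter.mp he').1 hne
      by_contra hcon
      rw [not_lt] at hcon
      apply absurd h1
      rw [not_lt]
      rcases Nat.eq_zero_or_pos n with rfl | hn
      · unfold dn
        rw [Real.iSup_of_isEmpty]
        exact hε.le
      · have : Nonempty (Fin n) := ⟨⟨0, hn⟩⟩
        unfold dn
        refine ciSup_le fun j => ?_
        rw [prodMap_iter, prodMap_iter, Prod.dist_eq]
        refine max_le ?_ (hnear e he e' he').le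
        exact (le_ciSup (bddAbove_dn f n e.1 e'.1) j).trans hcon
    have hinj : Set.InjOn Prod.fst (E.filter (fun e => c e.2 = i) : Set (M × N)) := by
      intro e he e' he' h
      by_contra hne
      have h1 := key e he e' he' hne
      have h0 : dn f n e.1 e'.1 ≤ 0 := by
        rw [h]
        unfold dn
        exact Real.iSup_le (fun j => (dist_self _).le) le_rfl
      linarith
    rw [← Finset.card_image_of_injOn hinj]
    unfold sepCard
    refine le_iSup₂_of_le ((E.filter (fun e => c e.2 = i)).image Prod.fst) ?_ le_rfl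
    intro x hx y hy hxy
    rw [Finset.mem_image] at hx hy
    obtain ⟨e, he, rfl⟩ := hx
    obtain ⟨e', he', rfl⟩ := hy
    exact key e he e' he' (fun h => hxy (congrArg Prod.fst h))
  have hcard : E.card = ∑ i ∈ ht.toFinset, (E.filter fun e => c e.2 = i).card :=
    Finset.card_eq_sum_card_fiberwise fun e _ => hc1 e.2
  rw [hcard, Nat.cast_sum]
  refine (Finset.sum_le_sum hfib).trans ?_
  rw [Finset.sum_const, nsmul_eq_mul]

/-- the product of a zero entropy map with an identity has zero entropy -/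
theorem isTopEntropy_prod {M N : Type} [MetricSpace M] [MetricSpace N] [CompactSpace N]
    [Nonempty M] [Nonempty N] {f : M → M} (hf : IsTopEntropy f 0) :
    IsTopEntropy (Prod.map f (id : N → N)) 0 := by
  rw [isTopEntropy_iff]
  refine tendsto_const_nhds.congr' ?_
  filter_upwards [self_mem_nhdsWithin] with ε hε
  obtain ⟨K, hK⟩ := exists_card_bound (N := N) f hε
  exact le_antisymm (gr_nonneg _ ε) (gr_le_zero_of_le (gr_le_zero hf hε) K hK)

/-- eigenclasses pass to the product with the identity -/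
theorem homologyMap_prod {M N : Type} [TopologicalSpace M] [TopologicalSpace N] [Nonempty N]
    (f : C(M, M)) (i : ℕ) {l : ℝ}
    (x : ((singularHomologyFunctor (ModuleCat.{0} ℝ) i).obj (ModuleCat.of ℝ ℝ)).obj
      (TopCat.of M)) (hx0 : x ≠ 0) (hx : homologyMap i f x = l • x) :
    ∃ y : ((singularHomologyFunctor (ModuleCat.{0} ℝ) i).obj (ModuleCat.of ℝ ℝ)).obj
      (TopCat.of (M × N)), y ≠ 0 ∧
      homologyMap i (f.prodMap (ContinuousMap.id N)) y = l • y := by
  obtain ⟨n0⟩ := ‹Nonempty N›
  let j : C(M, M × N) := ⟨fun m => (m, n0), by fun_prop⟩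
  let p : C(M × N, M) := ⟨Prod.fst, continuous_fst⟩
  have hpj : p.comp j = ContinuousMap.id M := rfl
  have hgj : (f.prodMap (ContinuousMap.id N)).comp j = j.comp f := rfl
  refine ⟨Hm.hm i j x, ?_, ?_⟩
  · intro h0
    apply hx0
    have := congrArg (Hm.hm i p) h0
    rwa [← Hm.hm_comp, hpj, Hm.hm_id, map_zero] at this
  · change Hm.hm i (f.prodMap (ContinuousMap.id N)) (Hm.hm i j x) = _
    rw [← Hm.hm_comp, hgj, Hm.hm_comp, ← map_smul]
    exact congrArg (Hm.hm i j) hx

end Vale.Agent.P103.H308
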