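import Vale.Agent.P103.Bdl.B2

/-!
# P103: zero entropy with arbitrarily large homology eigenvalues on one fixed manifold

The iterates of the zero entropy counterexample.
-/

namespace Vale.Agent.P103.H308

open Filter Topology CategoryTheory AlgebraicTopology
open scoped Manifold ContDiff TensorProduct

section Entropy

variable {M : Type} [MetricSpace M]

theorem bddAbove_dn (f : M → M) (n : ℕ) (x y : M) :
    BddAbove (Set.range fun j : Fin n => dist (f^[j] x) (f^[j] y)) :=
  Set.Finite.bddAbove (Set.finite_range _)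

theorem dn_iter_le (f : M → M) {k : ℕ} (hk : 1 ≤ k) (n : ℕ) (x y : M) :
    dn (f^[k]) n x y ≤ dn f (n * k) x y := by
  unfold dn
  rcases Nat.eq_zero_or_pos n with rfl | hn
  · have h1 : IsEmpty (Fin (0 * k)) := by rw [Nat.zero_mul]; infer_instance
    rw [Real.iSup_of_isEmpty, Real.iSup_of_isEmpty]
  · have : Nonempty (Fin n) := ⟨⟨0, hn⟩⟩
    refine ciSup_le fun j => ?_
    have hlt : k * (j : ℕ) < n * k := by
      rw [Nat.mul_comm n k]
      exact Nat.mul_lt_mul_of_pos_left j.2 hk
    have h := le_ciSup (bddAbove_dn f (n * k) x y) ⟨k * (j : ℕ), hlt⟩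
    simpa only [Function.iterate_mul] using h

theorem sepCard_iter_le (f : M → M) {k : ℕ} (hk : 1 ≤ k) (n : ℕ) (ε : ℝ) :
    sepCard (f^[k]) n ε ≤ sepCard f (n * k) ε := by
  unfold sepCard
  refine iSup₂_le fun E hE => ?_
  exact le_iSup₂_of_le E (fun x hx y hy hxy => (hE x hx y hy hxy).trans_le (dn_iter_le f hk n x y))
    le_rfl

theorem sepCard_anti (f : M → M) (n : ℕ) {ε ε' : ℝ} (h : ε' ≤ ε) :
    sepCard f n ε ≤ sepCard f n ε' := by
  unfold sepCard
  refine iSup₂_le fun E hE => ?_
  exact le_iSup₂_of_le E (fun x hx y hy hxy => h.trans_lt (hE x hx y hy hxy)) le_rfl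

theorem one_le_sepCard [Nonempty M] (f : M → M) (n : ℕ) (ε : ℝ) : 1 ≤ sepCard f n ε := by
  obtain ⟨x⟩ := ‹Nonempty M›
  unfold sepCard
  refine le_iSup₂_of_le ({x} : Finset M) ?_ ?_
  · intro a ha b hb hab
    rw [Finset.mem_singleton] at ha hb
    exact absurd (ha.trans hb.symm) hab
  · simp

/-- the growth rate at scale `ε` -/
noncomputable def gr (f : M → M) (ε : ℝ) : EReal :=
  limsup (fun n : ℕ => ENNReal.log (sepCard f n ε : ENNReal) / (n : EReal)) atTop

theorem isTopEntropy_iff (f : M → M) (h : EReal) :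
    IsTopEntropy f h ↔ Tendsto (gr f) (𝓝[>] 0) (𝓝 h) := Iff.rfl

theorem log_nonneg [Nonempty M] (f : M → M) (n : ℕ) (ε : ℝ) :
    0 ≤ ENNReal.log (sepCard f n ε : ENNReal) := by
  rw [← ENNReal.log_one]
  apply ENNReal.log_monotone
  have h := one_le_sepCard f n ε
  exact_mod_cast h

theorem term_nonneg [Nonempty M] (f : M → M) (n : ℕ) (ε : ℝ) :
    0 ≤ ENNReal.log (sepCard f n ε : ENNReal) / (n : EReal) :=
  EReal.div_nonneg (log_nonneg f n ε) (by exact_mod_cast Nat.zero_le n)

theorem gr_nonneg [Nonempty M] (f : M → M) (ε : ℝ) : 0 ≤ gr f ε := by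
  unfold gr
  refine le_limsup_of_frequently_le ?_ ?_
  · exact Frequently.of_forall fun n => term_nonneg f n ε
  · isBoundedDefault

theorem gr_anti (f : M → M) {ε ε' : ℝ} (h : ε' ≤ ε) : gr f ε ≤ gr f ε' := by
  unfold gr
  refine limsup_le_limsup (Eventually.of_forall fun n => ?_) (by isBoundedDefault)
    (by isBoundedDefault)
  refine EReal.div_le_div_right_of_nonneg (by exact_mod_cast Nat.zero_le n) ?_
  apply ENNReal.log_monotone
  exact_mod_cast sepCard_anti f n h

theorem gr_le_zero {f : M → M} (hf : IsTopEntropy f 0) {ε : ℝ} (hε : 0 < ε) : gr f ε ≤ 0 := by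
  have h1 : Tendsto (gr f) (𝓝[>] 0) (𝓝 0) := hf
  refine ge_of_tendsto h1 ?_
  filter_upwards [Ioc_mem_nhdsGT hε] with ε' hε'
  exact gr_anti f hε'.2

theorem gr_iter_le_zero [Nonempty M] {f : M → M} (hf : IsTopEntropy f 0) {k : ℕ} (hk : 1 ≤ k)
    {ε : ℝ} (hε : 0 < ε) : gr (f^[k]) ε ≤ 0 := by
  have h0 := gr_le_zero hf hε
  refine EReal.le_of_forall_lt_iff_le.mp fun z hz => ?_
  have hz' : (0 : ℝ) < z := by exact_mod_cast hz
  have hk' : (0 : ℝ) < k := by exact_mod_cast hk
  have hzk : (0 : EReal) < ((z / k : ℝ) : EReal) := by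
    exact_mod_cast div_pos hz' hk'
  have h1 : gr f ε < ((z / k : ℝ) : EReal) := h0.trans_lt hzk
  have h2 : ∀ᶠ n : ℕ in atTop,
      ENNReal.log (sepCard f n ε : ENNReal) / (n : EReal) < ((z / k : ℝ) : EReal) :=
    eventually_lt_of_limsup_lt h1 (by isBoundedDefault)
  have h3 : Tendsto (fun n : ℕ => n * k) atTop atTop :=
    tendsto_id.atTop_mul_const' (by omega)
  have h4 := (h3.eventually h2).and (eventually_ge_atTop 1)
  unfold gr
  refine limsup_le_of_le (by isBoundedDefault) ?_
  filter_upwards [h4] with n hn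
  obtain ⟨hn1, hn2⟩ := hn
  have hn' : (0 : ℝ) < n := by exact_mod_cast hn2
  have e1 : (0 : EReal) < ((n * k : ℕ) : EReal) := by
    exact_mod_cast Nat.mul_pos hn2 hk
  have e2 : ((n * k : ℕ) : EReal) ≠ ⊤ := EReal.natCast_ne_top _
  have h5 : ENNReal.log (sepCard f (n * k) ε : ENNReal) < ((z / k : ℝ) : EReal) *
      ((n * k : ℕ) : EReal) := by
    have h := (EReal.div_lt_iff e1 e2).mp hn1
    simpa only [mul_comm] using h
  have h6 : ((z / k : ℝ) : EReal) * ((n * k : ℕ) : EReal) = ((z * n : ℝ) : EReal) := by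
    have : ((n * k : ℕ) : EReal) = (((n * k : ℕ) : ℝ) : EReal) := by norm_cast
    rw [this, ← EReal.coe_mul]
    congr 1
    push_cast
    field_simp
  have h7 : ENNReal.log (sepCard (f^[k]) n ε : ENNReal) ≤
      ENNReal.log (sepCard f (n * k) ε : ENNReal) := by
    apply ENNReal.log_monotone
    exact_mod_cast sepCard_iter_le f hk n ε
  have e3 : (0 : EReal) < (n : EReal) := by exact_mod_cast hn2
  refine (EReal.div_le_iff_le_mul e3 (EReal.natCast_ne_top _)).mpr ?_
  refine h7.trans (h5.le.trans (le_of_eq ?_))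
  rw [h6]
  have : (n : EReal) = ((n : ℝ) : EReal) := by norm_cast
  rw [this, ← EReal.coe_mul]
  first
    | rfl
    | (congr 1; ring)

/-- an iterate of a map with zero entropy has zero entropy -/
theorem isTopEntropy_iter [Nonempty M] {f : M → M} (hf : IsTopEntropy f 0) {k : ℕ}
    (hk : 1 ≤ k) : IsTopEntropy (f^[k]) 0 := by
  rw [isTopEntropy_iff]
  refine tendsto_const_nhds.congr' ?_
  filter_upwards [self_mem_nhdsWithin] with ε hε
  exact le_antisymm (gr_nonneg _ ε) (gr_iter_le_zero hf hk hε)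

end Entropy

/-- the iterate as a continuous map -/
def powC {M : Type} [TopologicalSpace M] (f : C(M, M)) (k : ℕ) : C(M, M) :=
  ⟨f^[k], f.continuous.iterate k⟩

theorem powC_succ {M : Type} [TopologicalSpace M] (f : C(M, M)) (k : ℕ) :
    powC f (k + 1) = (powC f k).comp f := by
  ext x
  rfl

theorem homologyMap_powC {M : Type} [TopologicalSpace M] (f : C(M, M)) (i : ℕ)
    {l : ℝ} (x : ((singularHomologyFunctor (ModuleCat.{0} ℝ) i).obj (ModuleCat.of ℝ ℝ)).obj
      (TopCat.of M)) (hx : homologyMap i f x = l • x) (k : ℕ) :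
    homologyMap i (powC f k) x = (l ^ k) • x := by
  induction k with
  | zero =>
    have h : powC f 0 = ContinuousMap.id M := by ext y; rfl
    rw [h, pow_zero, one_smul]
    exact Hm.hm_id i x
  | succ k ih =>
    have h := Hm.hm_comp i (powC f k) f x
    rw [powC_succ]
    refine h.trans ?_
    change homologyMap i (powC f k) (homologyMap i f x) = _
    rw [hx, map_smul, ih, smul_smul, pow_succ, mul_comm]

theorem contMDiff_iter {E : Type} [NormedAddCommGroup E] [NormedSpace ℝ E]
    {H : Type} [TopologicalSpace H] {I : ModelWithCorners ℝ E H}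
    {M : Type} [TopologicalSpace M] [ChartedSpace H M] {f : M → M}
    (hf : ContMDiff I I 1 f) (k : ℕ) : ContMDiff I I 1 (f^[k]) := by
  induction k with
  | zero => exact contMDiff_id
  | succ k ih =>
    rw [Function.iterate_succ]
    exact ih.comp hf

end Vale.Agent.P103.H308
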